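import Vale.Agent.P181.H280.Main

set_option autoImplicit false

open scoped TensorProduct

namespace Vale.Agent.P181.H810

open Vale.Agent.P181 Vale.Agent.P181.H280 MvPolynomial

variable {n : ℕ}

/-- The general relations of a highest weight form, for all `M ≤ K` in `Fin n`. -/
theorem hwRel {a b : ℕ} (lam : Fin n → ℕ)
    (l : (Fin a → Fin b → (Fin n → ℂ)) →₀ ℂ) (hx : elOf l ∈ hwSpace lam (plethAct a b n))
    (M K : Fin n) (hMK : M ≤ K) (P : Fin a → MvPolynomial (Fin n) ℂ)
    (hP : ∀ i, P i ∈ linS n ^ b) :
    ∑ i, formOf l (Function.update P i (X K * pderiv M (P i))) =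
      (if K = M then (lam M : ℂ) else 0) * formOf l P := by
  classical
  let D' : Derivation ℂ (MvPolynomial (Fin n) ℂ) (MvPolynomial (Fin n) ℂ) :=
    (X K : MvPolynomial (Fin n) ℂ) • pderiv M
  have hD' : ∀ Q, D' Q = X K * pderiv M Q := fun Q => rfl
  have hD'X : ∀ j, D' (X j) = if j = M then X K else 0 := by
    intro j
    rw [hD']
    by_cases hj : j = M
    · rw [hj, pderiv_X_self, if_pos rfl, mul_one]
    · rw [pderiv_X_of_ne hj, if_neg hj, mul_zero]
  let c0 : ℂ := if K = M then (lam M : ℂ) else 0
  let Φ : MultilinearMap ℂ (fun _ : Fin a => MvPolynomial (Fin n) ℂ) ℂ :=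
    opForm D'.toLinearMap (formOf l) - c0 • formOf l
  have hΦ : Φ P = 0 := by
    apply multilinear_zero_of_span Φ
      (Set.range (fun c : Fin b → Fin n => ∏ j, (X (c j) : MvPolynomial (Fin n) ℂ)))
    · intro w hw
      choose c hc using hw
      let y : Fin a × Fin b → MvPolynomial (Fin n) ℂ := fun p => X (c p.1 p.2)
      have hw' : w = fun i => ∏ j, y (i, j) := by
        funext i
        exact (hc i).symm
      -- the action of a matrix
      have hact : ∀ (g : Matrix (Fin n) (Fin n) ℂ) (p : Fin a → Fin b → MvPolynomial (Fin n) ℂ),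
          IsBorel g → (∀ i j, evL n (p i j) = fun v => (Matrix.toLin' g v) (c i j)) →
          formOf l (fun i => ∏ j, p i j) = (∏ i, g i i ^ lam i) * formOf l w := by
        intro g p hg hp
        have h1 := formOf_lin l p (fun i j => (LinearMap.proj (c i j)) ∘ₗ Matrix.toLin' g)
          (fun i j => hp i j)
        rw [h1, ← symEval_act (Matrix.toLin' g) (fun i j => LinearMap.proj (c i j)) (elOf l)]
        have h2 : symMap a (symMap b (Matrix.toLin' g)) (elOf l) =
            (∏ i, g i i ^ lam i) • elOf l := hx g hg
        rw [h2, map_smul, smul_eq_mul]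
        congr 1
        rw [hw']
        exact (formOf_lin l (fun i j => X (c i j)) (fun i j => LinearMap.proj (c i j))
          (fun i j => evL_X _)).symm
      have hΦw : Φ w = ∑ p, rowProd b (formOf l) (Function.update y p (D' (y p))) -
          c0 * formOf l w := by
        have h1 := opForm_prod D' (formOf l) y
        rw [← hw'] at h1
        rw [← h1]
        rfl
      rw [hΦw]
      rcases eq_or_lt_of_le hMK with hkm | hkm
      · -- weights
        have hKM : K = M := hkm.symm
        have hc0 : c0 = lam M := if_pos hkm.symm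
        have h1 : ∀ p, rowProd b (formOf l) (Function.update y p (D' (y p))) =
            (if c p.1 p.2 = M then 1 else 0) * formOf l w := by
          intro p
          simp only [y]
          rw [hD'X]
          split_ifs with hcp
          · rw [one_mul, hKM, ← hcp, hw']
            have h2 : Function.update (fun p : Fin a × Fin b =>
                (X (c p.1 p.2) : MvPolynomial (Fin n) ℂ)) p (X (c p.1 p.2)) = y :=
              Function.update_eq_self p y
            rw [h2, rowProd_apply]
          · rw [zero_mul]
            exact MultilinearMap.map_update_zero _ _ _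
        rw [Finset.sum_congr rfl (fun p _ => h1 p), ← Finset.sum_mul, hc0, ← sub_mul]
        by_cases hz : formOf l w = 0
        · rw [hz, mul_zero]
        · have h3 := hact (Matrix.diagonal (Function.update 1 M 2))
            (fun i j => (Function.update (1 : Fin n → ℂ) M 2 (c i j)) • X (c i j)) (by
              constructor
              · intro i j hij
                exact Matrix.diagonal_apply_ne _ hij.ne'
              · intro i
                rw [Matrix.diagonal_apply_eq]
                by_cases hi : i = M
                · rw [hi, Function.update_self]; norm_num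
                · rw [Function.update_of_ne hi]; norm_num) (by
              intro i j
              rw [map_smul, evL_X]
              funext v
              rw [Matrix.toLin'_apply, Matrix.mulVec_diagonal]
              rfl)
          have h4 : formOf l (fun i => ∏ j,
              (Function.update (1 : Fin n → ℂ) M 2 (c i j)) • (X (c i j) : MvPolynomial (Fin n) ℂ)) =
              (∏ p : Fin a × Fin b, Function.update (1 : Fin n → ℂ) M 2 (c p.1 p.2)) *
                formOf l w := by
            have h5 := MultilinearMap.map_smul_univ (rowProd b (formOf l))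
              (fun p : Fin a × Fin b => Function.update (1 : Fin n → ℂ) M 2 (c p.1 p.2)) y
            rw [rowProd_apply, rowProd_apply, ← hw', smul_eq_mul] at h5
            exact h5
          rw [h4] at h3
          have h6 := mul_right_cancel₀ hz h3
          have h7 : ∏ p : Fin a × Fin b, Function.update (1 : Fin n → ℂ) M 2 (c p.1 p.2) =
              2 ^ (Finset.univ.filter (fun p : Fin a × Fin b => c p.1 p.2 = M)).card := by
            rw [← Finset.prod_const, Finset.prod_filter]
            apply Finset.prod_congr rfl
            intro p _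
            by_cases hp : c p.1 p.2 = M
            · rw [hp, Function.update_self, if_pos rfl]
            · rw [Function.update_of_ne hp, if_neg hp]
              rfl
          have h8 : ∏ i, (Matrix.diagonal (Function.update (1 : Fin n → ℂ) M 2)) i i ^ lam i =
              2 ^ lam M := by
            rw [Finset.prod_eq_single M]
            · rw [Matrix.diagonal_apply_eq, Function.update_self]
            · intro i _ hi
              rw [Matrix.diagonal_apply_eq, Function.update_of_ne hi]
              simp
            · intro hh
              exact absurd (Finset.mem_univ _) hh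
          rw [h7, h8] at h6
          have h9 : (Finset.univ.filter (fun p : Fin a × Fin b => c p.1 p.2 = M)).card =
              lam M := by
            have h10 : (2 : ℕ) ^ (Finset.univ.filter
                (fun p : Fin a × Fin b => c p.1 p.2 = M)).card = 2 ^ lam M := by
              exact_mod_cast h6
            exact Nat.pow_right_injective le_rfl h10
          have h11 : ∑ p : Fin a × Fin b, (if c p.1 p.2 = M then (1 : ℂ) else 0) = lam M := by
            rw [← h9, Finset.sum_boole]
          rw [h11, sub_self, zero_mul]
      · -- raising operators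
        have hMK' : M < K := hkm
        have hc0 : c0 = 0 := if_neg hkm.ne'
        rw [hc0, zero_mul, sub_zero]
        apply first_order' (rowProd b (formOf l)) y (fun p => D' (y p)) (formOf l w)
        intro t
        rw [rowProd_apply]
        have h3 := hact (Matrix.transvection M K t)
          (fun i j => y (i, j) + t • D' (y (i, j))) (by
            constructor
            · intro i j hij
              rw [Matrix.transvection, Matrix.add_apply, Matrix.one_apply_ne hij.ne',
                Matrix.single_apply_of_ne, add_zero]
              rintro ⟨rfl, rfl⟩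
              exact absurd hij (not_lt.2 hMK'.le)
            · intro i
              rw [Matrix.transvection, Matrix.add_apply, Matrix.one_apply_eq,
                Matrix.single_apply_of_ne, add_zero]
              · exact one_ne_zero
              · rintro ⟨rfl, h5⟩
                exact hMK'.ne h5.symm) (by
            intro i j
            simp only [y]
            rw [map_add, map_smul, hD'X, evL_X]
            funext v
            rw [Matrix.toLin'_apply, Matrix.transvection, Matrix.add_mulVec, Matrix.one_mulVec]
            rw [Pi.add_apply, Pi.add_apply, Pi.smul_apply]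
            congr 1
            by_cases hp : c i j = M
            · rw [if_pos hp, evL_X, hp]
              simp [Matrix.mulVec, dotProduct, Matrix.single_apply]
            · rw [if_neg hp, map_zero]
              simp [Matrix.mulVec, dotProduct, Ne.symm hp])
        rw [h3]
        have h8 : ∏ i, (Matrix.transvection M K t) i i ^ lam i = 1 := by
          apply Finset.prod_eq_one
          intro i _
          rw [Matrix.transvection, Matrix.add_apply, Matrix.one_apply_eq,
            Matrix.single_apply_of_ne, add_zero, one_pow]
          rintro ⟨rfl, h5⟩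
          exact hMK'.ne h5.symm
        rw [h8, one_mul]
    · intro i
      exact span_pow_eq _ _ (hP i)
  have h1 : Φ P = opForm D'.toLinearMap (formOf l) P - c0 * formOf l P := rfl
  rw [h1, sub_eq_zero, opForm_apply] at hΦ
  exact hΦ

/-- The span of the variables of index at least two. -/
noncomputable def tailS (n : ℕ) : Submodule ℂ (MvPolynomial (Fin n) ℂ) :=
  Submodule.span ℂ ((X : Fin n → MvPolynomial (Fin n) ℂ) '' {j | 2 ≤ (j : ℕ)})

/-- The monomial of an exponent. -/
noncomputable def mon (m : Fin n →₀ ℕ) : MvPolynomial (Fin n) ℂ := monomial m 1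

lemma mon_mem (m : Fin n →₀ ℕ) : mon m ∈ linS n ^ (m.sum fun _ e => e) := by
  classical
  induction m using Finsupp.induction with
  | zero =>
    rw [Finsupp.sum_zero_index, pow_zero]
    exact Submodule.mem_one.2 ⟨1, map_one _⟩
  | single_add j e m hj he ih =>
    rw [Finsupp.sum_add_index' (fun _ => rfl) (fun _ _ _ => rfl), Finsupp.sum_single_index rfl,
      pow_add]
    have h1 : mon (Finsupp.single j e + m) = (X j : MvPolynomial (Fin n) ℂ) ^ e * mon m := by
      rw [mon, mon, X_pow_eq_monomial, monomial_mul, one_mul]
    rw [h1]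
    exact Submodule.mul_mem_mul (Submodule.pow_mem_pow _ (X_mem_linS j) e) ih

lemma linS_pow_le (b : ℕ) : (linS n) ^ b ≤
    Submodule.span ℂ (mon '' {m : Fin n →₀ ℕ | (m.sum fun _ e => e) = b}) := by
  induction b with
  | zero =>
    rw [pow_zero, Submodule.one_eq_span, Submodule.span_le]
    rintro _ rfl
    apply Submodule.subset_span
    exact ⟨0, Finsupp.sum_zero_index, rfl⟩
  | succ b ih =>
    rw [pow_succ', linS]
    refine (mul_le_mul' (le_refl _) ih).trans ?_
    rw [Submodule.span_mul_span, Submodule.span_le]
    rintro _ ⟨_, ⟨i, rfl⟩, _, ⟨m, hm, rfl⟩, rfl⟩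
    apply Submodule.subset_span
    refine ⟨Finsupp.single i 1 + m, ?_, ?_⟩
    · change (m.sum fun _ e => e) = b at hm
      change (Finsupp.sum (Finsupp.single i 1 + m) fun _ e => e) = b + 1
      rw [Finsupp.sum_add_index' (fun _ => rfl) (fun _ _ _ => rfl), Finsupp.sum_single_index rfl,
        hm, add_comm]
    · simp only [mon]
      rw [X, monomial_mul, one_mul]

/-- The tail degree of an exponent. -/
def tdeg (m : Fin n →₀ ℕ) : ℕ := ∑ j : Fin n, if 2 ≤ (j : ℕ) then m j else 0

lemma tdeg_add (m m' : Fin n →₀ ℕ) : tdeg (m + m') = tdeg m + tdeg m' := by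
  rw [tdeg, tdeg, tdeg, ← Finset.sum_add_distrib]
  apply Finset.sum_congr rfl
  intro j _
  split_ifs
  · rfl
  · rfl

lemma tdeg_single (j : Fin n) (hj : 2 ≤ (j : ℕ)) (e : ℕ) : tdeg (Finsupp.single j e) = e := by
  classical
  rw [tdeg, Finset.sum_eq_single j]
  · rw [if_pos hj, Finsupp.single_eq_same]
  · intro i _ hi
    rw [Finsupp.single_eq_of_ne hi, ite_self]
  · intro h
    exact absurd (Finset.mem_univ _) h

lemma tail_pow_le (r b : ℕ) : (tailS n) ^ r * (linS n) ^ b ≤
    Submodule.span ℂ (mon '' {m : Fin n →₀ ℕ | (m.sum fun _ e => e) = b + r ∧ r ≤ tdeg m}) := by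
  induction r with
  | zero =>
    rw [pow_zero, one_mul]
    refine (linS_pow_le b).trans ?_
    apply Submodule.span_mono
    rintro _ ⟨m, hm, rfl⟩
    exact ⟨m, ⟨hm, Nat.zero_le _⟩, rfl⟩
  | succ r ih =>
    rw [pow_succ', mul_assoc, tailS]
    refine (mul_le_mul' (le_refl _) ih).trans ?_
    rw [Submodule.span_mul_span, Submodule.span_le]
    rintro _ ⟨_, ⟨i, hi, rfl⟩, _, ⟨m, ⟨hm1, hm2⟩, rfl⟩, rfl⟩
    apply Submodule.subset_span
    have hi' : 2 ≤ (i : ℕ) := hi
    refine ⟨Finsupp.single i 1 + m, ⟨?_, ?_⟩, ?_⟩
    · rw [Finsupp.sum_add_index' (fun _ => rfl) (fun _ _ _ => rfl), Finsupp.sum_single_index rfl,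
        hm1]
      omega
    · rw [tdeg_add, tdeg_single i hi']
      omega
    · simp only [mon]
      rw [X, monomial_mul, one_mul]


lemma X_mul_pderiv_mon (K M : Fin n) (m : Fin n →₀ ℕ) :
    X K * pderiv M (mon m) =
      (m M : ℂ) • mon (m - Finsupp.single M 1 + Finsupp.single K 1) := by
  rw [mon, pderiv_monomial, mon, X, monomial_mul, smul_monomial, add_comm]
  simp

lemma multilinear_zero_of_span' {κ : Type*} [Fintype κ] {M N : Type*} [AddCommGroup M] [Module ℂ M]
    [AddCommGroup N] [Module ℂ N] (Φ : MultilinearMap ℂ (fun _ : κ => M) N) (S : κ → Set M)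
    (h : ∀ w : κ → M, (∀ i, w i ∈ S i) → Φ w = 0) (w : κ → M)
    (hw : ∀ i, w i ∈ Submodule.span ℂ (S i)) : Φ w = 0 := by
  classical
  have h1 : ∀ i, ∃ l : S i →₀ ℂ, Finsupp.linearCombination ℂ (Subtype.val : S i → M) l = w i := by
    intro i
    rw [← Finsupp.mem_span_iff_linearCombination]
    exact hw i
  choose l hl using h1
  have h2 : w = fun i => ∑ r ∈ (l i).support, (l i r) • (r : M) := by
    funext i
    rw [← hl i, Finsupp.linearCombination_apply, Finsupp.sum]
  rw [h2, MultilinearMap.map_sum_finset]
  apply Finset.sum_eq_zero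
  intro r _
  rw [MultilinearMap.map_smul_univ, h _ (fun i => (r i).2), smul_zero]

lemma mon_sum_mem {b : ℕ} (m : Fin n →₀ ℕ) (h : (m.sum fun _ e => e) = b) :
    mon m ∈ linS n ^ b := by
  rw [← h]
  exact mon_mem m

lemma sum_sub_add (m : Fin n →₀ ℕ) (M K : Fin n) (h : 1 ≤ m M) :
    ((m - Finsupp.single M 1 + Finsupp.single K 1).sum fun _ e => e) = m.sum fun _ e => e := by
  classical
  have h1 : m - Finsupp.single M 1 + Finsupp.single M 1 = m :=
    tsub_add_cancel_of_le (by rwa [Finsupp.single_le_iff])
  conv_rhs => rw [← h1]
  rw [Finsupp.sum_add_index' (fun _ => rfl) (fun _ _ _ => rfl), Finsupp.sum_single_index rfl,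
    Finsupp.sum_add_index' (fun _ => rfl) (fun _ _ _ => rfl), Finsupp.sum_single_index rfl]

lemma tdeg_sub_add (m : Fin n →₀ ℕ) (M K : Fin n) (hM : 2 ≤ (M : ℕ)) (hK : 2 ≤ (K : ℕ))
    (h : 1 ≤ m M) : tdeg (m - Finsupp.single M 1 + Finsupp.single K 1) = tdeg m := by
  classical
  have h1 : m - Finsupp.single M 1 + Finsupp.single M 1 = m :=
    tsub_add_cancel_of_le (by rwa [Finsupp.single_le_iff])
  conv_rhs => rw [← h1]
  rw [tdeg_add, tdeg_add, tdeg_single M hM, tdeg_single K hK]

/-- The monomial case. -/
lemma mono_zero {a b : ℕ} (F : MultilinearMap ℂ (fun _ : Fin a => MvPolynomial (Fin n) ℂ) ℂ)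
    (two : Fin n) (htwo : (two : ℕ) = 2) (c : ℕ) (hc : c ≤ 2)
    (hrel : ∀ K : Fin n, two ≤ K → ∀ P : Fin a → MvPolynomial (Fin n) ℂ,
      (∀ i, P i ∈ linS n ^ b) → ∑ i, F (Function.update P i (X K * pderiv two (P i))) =
        (if K = two then (c : ℂ) else 0) * F P) (i0 : Fin a) (k : ℕ) :
    ∀ m : Fin a → Fin n →₀ ℕ, (∀ i, ((m i).sum fun _ e => e) = b) → 3 ≤ tdeg (m i0) →
      3 ≤ m i0 two + k → F (fun i => mon (m i)) = 0 := by
  classical
  induction k with
  | zero =>
    intro m hm ht h3
    have h1 := hrel two le_rfl (fun i => mon (m i)) (fun i => mon_sum_mem _ (hm i))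
    rw [if_pos rfl] at h1
    have h2 : ∀ i, F (Function.update (fun i => mon (m i)) i (X two * pderiv two (mon (m i)))) =
        (m i two : ℂ) * F (fun i => mon (m i)) := by
      intro i
      rw [X_mul_pderiv_mon, MultilinearMap.map_update_smul, smul_eq_mul]
      rcases Nat.eq_zero_or_pos (m i two) with h0 | h0
      · rw [h0, Nat.cast_zero, zero_mul, zero_mul]
      · have h4 : m i - Finsupp.single two 1 + Finsupp.single two 1 = m i :=
          tsub_add_cancel_of_le (by rwa [Finsupp.single_le_iff])
        rw [h4, Function.update_eq_self]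
    rw [Finset.sum_congr rfl (fun i _ => h2 i), ← Finset.sum_mul, ← sub_eq_zero, ← sub_mul] at h1
    refine (mul_eq_zero.1 h1).resolve_left ?_
    intro h5
    rw [sub_eq_zero, ← Nat.cast_sum] at h5
    have h6 : ∑ i, m i two = c := by exact_mod_cast h5
    have h7 : m i0 two ≤ ∑ i, m i two :=
      Finset.single_le_sum (f := fun i => m i two) (fun _ _ => Nat.zero_le _) (Finset.mem_univ i0)
    omega
  | succ k ih =>
    intro m hm ht h3
    by_cases h4 : 3 ≤ m i0 two + k
    · exact ih m hm ht h4
    have h5 : m i0 two ≤ 2 := by omega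
    have hK : ∃ K : Fin n, 2 < (K : ℕ) ∧ 1 ≤ m i0 K := by
      by_contra hcon
      push Not at hcon
      have h6 : tdeg (m i0) ≤ m i0 two := by
        rw [tdeg, Finset.sum_eq_single two]
        · rw [if_pos htwo.ge]
        · intro j _ hj
          by_cases hj2 : 2 ≤ (j : ℕ)
          · rw [if_pos hj2]
            have h7 : 2 < (j : ℕ) := by
              rcases Nat.lt_or_ge 2 (j : ℕ) with h8 | h8
              · exact h8
              · exact absurd (Fin.ext (by omega)) hj
            have h8 := hcon j h7
            omega
          · rw [if_neg hj2]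
        · intro h
          exact absurd (Finset.mem_univ _) h
      omega
    obtain ⟨K, hK2, hK1⟩ := hK
    have hK2' : two ≤ K := by
      rw [Fin.le_def]; omega
    have hne : K ≠ two := by
      rintro rfl; omega
    set m' : Fin a → Fin n →₀ ℕ :=
      Function.update m i0 (m i0 - Finsupp.single K 1 + Finsupp.single two 1) with hm'
    have hm'0 : m' i0 = m i0 - Finsupp.single K 1 + Finsupp.single two 1 :=
      Function.update_self _ _ _
    have hm'i : ∀ i, i ≠ i0 → m' i = m i := fun i hi => Function.update_of_ne hi _ _
    have hm's : ∀ i, ((m' i).sum fun _ e => e) = b := by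
      intro i
      by_cases hi : i = i0
      · rw [hi, hm'0, sum_sub_add _ _ _ hK1, hm]
      · rw [hm'i i hi, hm]
    have hm't : tdeg (m' i0) = tdeg (m i0) := by
      rw [hm'0, tdeg_sub_add _ _ _ (by omega) htwo.ge hK1]
    have hm'two : m' i0 two = m i0 two + 1 := by
      rw [hm'0, Finsupp.add_apply, Finsupp.tsub_apply, Finsupp.single_eq_same,
        Finsupp.single_eq_of_ne (Ne.symm hne), Nat.sub_zero]
    have h1 := hrel K hK2' (fun i => mon (m' i)) (fun i => mon_sum_mem _ (hm's i))
    rw [if_neg hne, zero_mul, Finset.sum_eq_single i0] at h1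
    · rw [X_mul_pderiv_mon, MultilinearMap.map_update_smul, smul_eq_mul] at h1
      have h6 : m' i0 - Finsupp.single two 1 + Finsupp.single K 1 = m i0 := by
        rw [hm'0, add_tsub_cancel_right]
        exact tsub_add_cancel_of_le (by rwa [Finsupp.single_le_iff])
      have h7 : Function.update (fun i => (mon (m' i) : MvPolynomial (Fin n) ℂ)) i0 (mon (m i0)) =
          fun i => (mon (m i) : MvPolynomial (Fin n) ℂ) := by
        funext i
        by_cases hi : i = i0
        · rw [hi, Function.update_self]
        · rw [Function.update_of_ne hi, hm'i i hi]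
      rw [h6, h7] at h1
      refine (mul_eq_zero.1 h1).resolve_left ?_
      rw [hm'two]
      exact Nat.cast_ne_zero.2 (Nat.succ_ne_zero (m i0 two))
    · intro i _ hi
      rw [X_mul_pderiv_mon, MultilinearMap.map_update_smul, smul_eq_mul]
      rcases Nat.eq_zero_or_pos (m' i two) with h0 | h0
      · rw [h0, Nat.cast_zero, zero_mul]
      · have h8 : Function.update (fun i => (mon (m' i) : MvPolynomial (Fin n) ℂ)) i
            (mon (m' i - Finsupp.single two 1 + Finsupp.single K 1)) =
            fun j => mon (Function.update m' i (m' i - Finsupp.single two 1 +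
              Finsupp.single K 1) j) := by
          funext j
          by_cases hj : j = i
          · rw [hj, Function.update_self, Function.update_self]
          · rw [Function.update_of_ne hj, Function.update_of_ne hj]
        rw [h8, ih, mul_zero]
        · intro j
          by_cases hj : j = i
          · rw [hj, Function.update_self, sum_sub_add _ _ _ h0, hm's]
          · rw [Function.update_of_ne hj, hm's]
        · rw [Function.update_of_ne (Ne.symm hi), hm't]
          exact ht
        · rw [Function.update_of_ne (Ne.symm hi), hm'two]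
          omega
    · intro h
      exact absurd (Finset.mem_univ _) h

/-- **(V3).** The form of a highest weight vector with `lam_3 ≤ 2` (third row, index `2`) vanishes
as soon as one entry has tail degree at least `3`. -/
theorem v3 {a b : ℕ} (lam : Fin n → ℕ) (hlam : ∀ i : Fin n, (i : ℕ) = 2 → lam i ≤ 2)
    (l : (Fin a → Fin b → (Fin n → ℂ)) →₀ ℂ) (hx : elOf l ∈ hwSpace lam (plethAct a b n))
    (hb : 3 ≤ b) (P : Fin a → MvPolynomial (Fin n) ℂ) (hP : ∀ i, P i ∈ linS n ^ b)
    (h3 : ∃ i, P i ∈ tailS n ^ 3 * linS n ^ (b - 3)) : formOf l P = 0 := by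
  classical
  obtain ⟨i0, hi0⟩ := h3
  rcases Nat.lt_or_ge 2 n with hn | hn
  · set two : Fin n := ⟨2, hn⟩ with htwo
    apply multilinear_zero_of_span' (formOf l)
      (fun i => if i = i0 then mon '' {m : Fin n →₀ ℕ | (m.sum fun _ e => e) = b ∧ 3 ≤ tdeg m}
        else mon '' {m : Fin n →₀ ℕ | (m.sum fun _ e => e) = b})
    · intro w hw
      have h1 : ∀ i, ∃ m : Fin n →₀ ℕ, (m.sum fun _ e => e) = b ∧ (i = i0 → 3 ≤ tdeg m) ∧
          mon m = w i := by
        intro i
        have h2 := hw i
        by_cases hi : i = i0
        · simp only [if_pos hi] at h2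
          obtain ⟨m, ⟨hm1, hm2⟩, hm3⟩ := h2
          exact ⟨m, hm1, fun _ => hm2, hm3⟩
        · simp only [if_neg hi] at h2
          obtain ⟨m, hm1, hm3⟩ := h2
          exact ⟨m, hm1, fun h => absurd h hi, hm3⟩
      choose m hm1 hm2 hm3 using h1
      have h4 : w = fun i => mon (m i) := by
        funext i
        exact (hm3 i).symm
      rw [h4]
      exact mono_zero (formOf l) two rfl (lam two) (hlam two rfl)
        (fun K hK P hP => hwRel lam l hx two K hK P hP) i0 3 m hm1 (hm2 i0 rfl) (by omega)
    · intro i
      by_cases hi : i = i0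
      · simp only [if_pos hi]
        have h5 := tail_pow_le 3 (b - 3) hi0
        rw [Nat.sub_add_cancel hb] at h5
        rw [hi]
        exact h5
      · simp only [if_neg hi]
        exact linS_pow_le b (hP i)
  · have h1 : tailS n = ⊥ := by
      rw [tailS, Submodule.span_eq_bot]
      rintro _ ⟨j, hj, _⟩
      have hj' : 2 ≤ (j : ℕ) := hj
      exact absurd j.2 (by omega)
    rw [h1, pow_succ, Submodule.mul_bot, Submodule.bot_mul, Submodule.mem_bot] at hi0
    exact MultilinearMap.map_coord_zero _ i0 hi0

end Vale.Agent.P181.H810
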